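import Vale.Agent.P011.D4T.Defs2

/-!
Block D4T: the singular elements `v` with `v * J v ∈ E e₊`, and the neighbours of `e₊ l`.
-/

namespace Vale.Agent.P011.D4T

open Vale.Agent.P011.MPQ Vale.Agent.P011.D4 Vale.Agent.P011.D4.Oct Vale.Agent.P011.E6

theorem Nei.cyc_fix {k L : Type} [Field k] [Field L] [Algebra k L] (h3 : Module.finrank k L = 3)
    {ρL : L ≃ₐ[k] L} (h1 : ρL ≠ 1) {x : L} (hx : ρL x = x) : ∃ p : k, algebraMap k L p = x := by
  have : FiniteDimensional k L := Module.finite_of_finrank_pos (by omega)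
  have h4 := Module.finrank_mul_finrank k (IntermediateField.adjoin k {x}) L
  rw [h3] at h4
  have h5 : Module.finrank k (IntermediateField.adjoin k {x}) ∣ 3 := ⟨_, h4.symm⟩
  rcases (Nat.dvd_prime Nat.prime_three).1 h5 with h6 | h6
  · have h7 := IntermediateField.finrank_eq_one_iff.1 h6
    have h8 : x ∈ (⊥ : IntermediateField k L) := by
      rw [← h7]
      exact IntermediateField.mem_adjoin_simple_self k x
    exact IntermediateField.mem_bot.1 h8
  · exfalso
    apply h1
    have h7 : IntermediateField.adjoin k {x} = ⊤ := by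
      apply IntermediateField.eq_of_le_of_finrank_eq le_top
      rw [IntermediateField.finrank_top', h6, h3]
    have h8 : ∀ y : L, ρL y = y := by
      intro y
      have hy : y ∈ IntermediateField.adjoin k {x} := by rw [h7]; trivial
      induction hy using IntermediateField.adjoin_induction with
      | mem z hz => rw [Set.mem_singleton_iff.1 hz, hx]
      | algebraMap z => exact ρL.commutes z
      | add z w _ _ hz hw => rw [map_add, hz, hw]
      | inv z _ hz => rw [map_inv₀, hz]
      | mul z w _ _ hz hw => rw [map_mul, hz, hw]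
    exact AlgEquiv.ext h8

section base

variable {k E : Type} [Field k] [Field E] [Algebra k E] {ρ σ : E ≃ₐ[k] E} {α : E}
  {a b c : kˣ}

theorem Nei.al_ne (hα : α * α = algebraMap k E a) : α ≠ 0 := by
  intro h
  rw [h, mul_zero] at hα
  exact (map_ne_zero (algebraMap k E)).2 a.ne_zero hα.symm

theorem Nei.o1 (x : OctL E a b c) : (omap ρ x).fst = qmap ρ x.fst := rfl

theorem Nei.o2 (x : OctL E a b c) : (omap ρ x).snd = qmap ρ x.snd := rfl

/-- The elements of the form `e₊ x`, in coordinates. -/
def Nei.InP (α : E) (x : OctL E a b c) : Prop :=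
  x.fst.re = α * x.fst.imI ∧ x.fst.imJ = α * x.fst.imK ∧ x.snd.re = α * x.snd.imI ∧
    x.snd.imJ = -(α * x.snd.imK)

variable [NeZero (2 : E)]

theorem Nei.tri_ep (hρα : ρ α = α) (hα : α * α = algebraMap k E a) (v : OctL E a b c) :
    tri ρ v (ep α) =
      ⟨⟨(ρ v.fst.re + α * ρ v.fst.imI) / 2, -((ρ v.fst.re + α * ρ v.fst.imI) / (2 * α)),
        -((ρ v.fst.imJ + α * ρ v.fst.imK) / 2), -((ρ v.fst.imJ + α * ρ v.fst.imK) / (2 * α))⟩,
       ⟨-((ρ v.snd.re + α * ρ v.snd.imI) / 2), -((ρ v.snd.re + α * ρ v.snd.imI) / (2 * α)),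
        -((ρ v.snd.imJ - α * ρ v.snd.imK) / 2), (ρ v.snd.imJ - α * ρ v.snd.imK) / (2 * α)⟩⟩ := by
  have h0 := Nei.al_ne hα
  have h2 : (2 : E) ≠ 0 := NeZero.ne 2
  have ha : ((up E a : Eˣ) : E) = α * α := hα.symm
  apply ext8 <;>
    simp only [tri, ep, fst_mul, snd_mul, Nei.o1, Nei.o2, fst_star, snd_star, re_qmap,
      imI_qmap, imJ_qmap, imK_qmap, QuaternionAlgebra.re_star, QuaternionAlgebra.imI_star,
      QuaternionAlgebra.imJ_star, QuaternionAlgebra.imK_star, QuaternionAlgebra.re_add,
      QuaternionAlgebra.imI_add, QuaternionAlgebra.imJ_add, QuaternionAlgebra.imK_add,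
      QuaternionAlgebra.re_mul, QuaternionAlgebra.imI_mul, QuaternionAlgebra.imJ_mul,
      QuaternionAlgebra.imK_mul, QuaternionAlgebra.re_smul, QuaternionAlgebra.imI_smul,
      QuaternionAlgebra.imJ_smul, QuaternionAlgebra.imK_smul, smul_eq_mul, neg_zero, qmap_zero,
      star_zero, zero_mul, mul_zero, add_zero, zero_add, sub_zero, map_neg, map_zero, map_one,
      map_div₀, map_mul, map_ofNat, hρα, ha, QuaternionAlgebra.re_neg, QuaternionAlgebra.imI_neg,
      QuaternionAlgebra.imJ_neg, QuaternionAlgebra.imK_neg, QuaternionAlgebra.re_zero,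
      QuaternionAlgebra.imI_zero, QuaternionAlgebra.imJ_zero, QuaternionAlgebra.imK_zero] <;>
    field_simp <;> ring

omit [NeZero (2 : E)] in
/-- The `e₊`-coordinate of `v * z` vanishes if `z ∈ e₊ C`. -/
theorem Nei.tri_inP (hρα : ρ α = α) (hα : α * α = algebraMap k E a) (v : OctL E a b c)
    {z : OctL E a b c} (hz : Nei.InP α z) :
    (tri ρ v z).fst.re + α * (tri ρ v z).fst.imI = 0 := by
  have ha : ((up E a : Eˣ) : E) = α * α := hα.symm
  obtain ⟨h1, h2, h3, h4⟩ := hz
  simp only [tri, fst_mul, Nei.o1, Nei.o2, fst_star, snd_star, re_qmap,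
      imI_qmap, imJ_qmap, imK_qmap, QuaternionAlgebra.re_star, QuaternionAlgebra.imI_star,
      QuaternionAlgebra.imJ_star, QuaternionAlgebra.imK_star, QuaternionAlgebra.re_add,
      QuaternionAlgebra.imI_add, QuaternionAlgebra.re_mul, QuaternionAlgebra.imI_mul,
      QuaternionAlgebra.re_smul, QuaternionAlgebra.imI_smul,
      smul_eq_mul, map_neg, map_mul, hρα, ha, QuaternionAlgebra.re_neg,
      QuaternionAlgebra.imI_neg, zero_mul, add_zero,
      QuaternionAlgebra.imJ_neg, QuaternionAlgebra.imK_neg, h1, h2, h3, h4]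
  ring

end base

section model

variable {k L E : Type} [Field k] [Field L] [Field E] [Algebra k L] [Algebra k E] [Algebra L E]
  [IsScalarTower k L E] [NeZero (2 : E)] {ρ σ : E ≃ₐ[k] E} {ρL : L ≃ₐ[k] L} {α : E}
  {a b c : kˣ} {q : Lˣ} (H : Hy ρ σ ρL α a b c q)

include H

omit [IsScalarTower k L E] [NeZero (2 : E)] in
theorem Nei.al0 : α ≠ 0 := by
  intro h
  have hα := H.α2
  rw [h, mul_zero] at hα
  exact (map_ne_zero (algebraMap k E)).2 a.ne_zero hα.symm

theorem Nei.uniq {x0 x1 : L} (h : algebraMap L E x0 + algebraMap L E x1 * α = 0) :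
    x0 = 0 ∧ x1 = 0 := by
  have h1 := congrArg σ h
  rw [map_add, map_mul, H.σL, H.σL, H.σα, map_zero] at h1
  have h2 : (2 : E) ≠ 0 := NeZero.ne 2
  have h3 : (2 : E) * algebraMap L E x0 = 0 := by linear_combination h + h1
  have h4 : (2 * α) * algebraMap L E x1 = 0 := by linear_combination h - h1
  refine ⟨(map_eq_zero (algebraMap L E)).1 ((mul_eq_zero.1 h3).resolve_left h2),
    (map_eq_zero (algebraMap L E)).1 ((mul_eq_zero.1 h4).resolve_left
      (mul_ne_zero h2 (Nei.al0 H)))⟩

theorem Nei.split (x : E) : ∃ x0 x1 : L, x = algebraMap L E x0 + algebraMap L E x1 * α := by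
  have hli : LinearIndependent L ![(1 : E), α] := by
    rw [LinearIndependent.pair_iff]
    intro s t h
    rw [Algebra.smul_def, Algebra.smul_def, mul_one] at h
    exact Nei.uniq H h
  have : FiniteDimensional L E := Module.finite_of_finrank_pos (by rw [H.h2]; norm_num)
  have hsp : Submodule.span L (Set.range ![(1 : E), α]) = ⊤ :=
    hli.span_eq_top_of_card_eq_finrank' (by rw [H.h2]; rfl)
  have hx : x ∈ Submodule.span L (Set.range ![(1 : E), α]) := by rw [hsp]; trivial
  rw [Matrix.range_cons, Matrix.range_cons, Matrix.range_empty, Set.union_empty,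
    Set.singleton_union, Submodule.mem_span_pair] at hx
  obtain ⟨s, t, h⟩ := hx
  exact ⟨s, t, by rw [← h, Algebra.smul_def, Algebra.smul_def, mul_one]⟩

/-- The elements of `E` fixed by `ρ`. -/
theorem Nei.fix {x : E} (hx : ρ x = x) :
    ∃ p0 p1 : k, x = algebraMap k E p0 + algebraMap k E p1 * α := by
  obtain ⟨x0, x1, rfl⟩ := Nei.split H x
  rw [map_add, map_mul, H.ρL', H.ρL', H.ρα] at hx
  have h1 := Nei.uniq H (x0 := ρL x0 - x0) (x1 := ρL x1 - x1) (by
    rw [map_sub, map_sub]; linear_combination hx)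
  obtain ⟨p0, h2⟩ := Nei.cyc_fix H.h3 H.ρ1 (sub_eq_zero.1 h1.1)
  obtain ⟨p1, h3⟩ := Nei.cyc_fix H.h3 H.ρ1 (sub_eq_zero.1 h1.2)
  refine ⟨p0, p1, ?_⟩
  rw [← h2, ← h3, ← IsScalarTower.algebraMap_apply k L E, ← IsScalarTower.algebraMap_apply k L E]

omit [NeZero (2 : E)] in
theorem Nei.Jm_inP {v : OctL E a b c} (h0 : v.fst.re = -(α * v.fst.imI))
    (h1 : v.fst.imJ = -(α * v.fst.imK)) (h2 : v.snd.re = -(α * v.snd.imI))
    (h3 : v.snd.imJ = α * v.snd.imK) : Nei.InP α (Jm ρ σ α q v) := by
  have h0' := Nei.al0 H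
  have ha : ((up E a : Eˣ) : E) = α * α := H.α2.symm
  refine ⟨?_, ?_, ?_, ?_⟩ <;>
    simp only [Jm, mq, re_qmap,
      imI_qmap, imJ_qmap, imK_qmap, QuaternionAlgebra.re_star, QuaternionAlgebra.imI_star,
      QuaternionAlgebra.imJ_star, QuaternionAlgebra.imK_star,
      QuaternionAlgebra.re_mul, QuaternionAlgebra.imI_mul, QuaternionAlgebra.imJ_mul,
      QuaternionAlgebra.imK_mul, neg_zero, zero_mul, mul_zero, add_zero, zero_add, sub_zero,
      map_neg, map_mul, H.σα, ha, h0, h1, h2, h3] <;>
    field_simp <;> ring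

/-- D1a' : the singular vectors whose plane is the standard plane. -/
theorem sing_ep {v : OctL E a b c} (hv : Pt ρ v) {t : E} (ht : t ≠ 0)
    (h : tri ρ v (Jm ρ σ α q v) = t • ep α) : ∃ (s : E) (w : Oct a b c), s ≠ 0 ∧ w ≠ 0 ∧
      dot w 1 = 0 ∧ dot w gi = 0 ∧ v = s • (ep α * oup E w) := by
  have h0 := Nei.al0 H
  have h2 : (2 : E) ≠ 0 := NeZero.ne 2
  have ha : ((up E a : Eˣ) : E) = α * α := H.α2.symm
  have hp := polar2 H.ρ3 v v (Jm ρ σ α q v)
  rw [hv.2, tri_zero_right, add_zero, h, tri_smul_right, Nei.tri_ep H.ρα H.α2] at hp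
  have hT : ρ (ρ t) ≠ 0 := by
    rw [ne_eq, map_eq_zero_iff ρ ρ.injective, map_eq_zero_iff ρ ρ.injective]
    exact ht
  set T := ρ (ρ t) with hTd
  set β := ρ (bil v (Jm ρ σ α q v)) with hβ
  have e0 := congrArg (fun z => z.fst.re) hp
  have e1 := congrArg (fun z => z.fst.imI) hp
  have e2 := congrArg (fun z => z.fst.imJ) hp
  have e3 := congrArg (fun z => z.fst.imK) hp
  have e4 := congrArg (fun z => z.snd.re) hp
  have e5 := congrArg (fun z => z.snd.imI) hp
  have e6 := congrArg (fun z => z.snd.imJ) hp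
  have e7 := congrArg (fun z => z.snd.imK) hp
  simp only [fst_smul, snd_smul, QuaternionAlgebra.re_smul, QuaternionAlgebra.imI_smul,
    QuaternionAlgebra.imJ_smul, QuaternionAlgebra.imK_smul, smul_eq_mul] at e0 e1 e2 e3 e4 e5 e6 e7
  field_simp at e0 e1 e2 e3 e4 e5 e6 e7
  by_cases hb : β = 0
  · exfalso
    rw [hb] at e0 e2 e4 e6
    have g0 : v.fst.re = -(α * v.fst.imI) := by
      have : ρ (v.fst.re + α * v.fst.imI) = 0 := by
        rw [map_add, map_mul, H.ρα]
        exact (mul_eq_zero.1 (by linear_combination e0 : T * (ρ v.fst.re + α * ρ v.fst.imI) = 0)).resolve_left hT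
      rw [map_eq_zero_iff ρ ρ.injective] at this
      linear_combination this
    have g1 : v.fst.imJ = -(α * v.fst.imK) := by
      have : ρ (v.fst.imJ + α * v.fst.imK) = 0 := by
        rw [map_add, map_mul, H.ρα]
        exact (mul_eq_zero.1 (by linear_combination -e2 : T * (ρ v.fst.imJ + α * ρ v.fst.imK) = 0)).resolve_left hT
      rw [map_eq_zero_iff ρ ρ.injective] at this
      linear_combination this
    have g2 : v.snd.re = -(α * v.snd.imI) := by
      have : ρ (v.snd.re + α * v.snd.imI) = 0 := by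
        rw [map_add, map_mul, H.ρα]
        exact (mul_eq_zero.1 (by linear_combination -e4 : T * (ρ v.snd.re + α * ρ v.snd.imI) = 0)).resolve_left hT
      rw [map_eq_zero_iff ρ ρ.injective] at this
      linear_combination this
    have g3 : v.snd.imJ = α * v.snd.imK := by
      have : ρ (v.snd.imJ - α * v.snd.imK) = 0 := by
        rw [map_sub, map_mul, H.ρα]
        exact (mul_eq_zero.1 (by linear_combination -e6 : T * (ρ v.snd.imJ - α * ρ v.snd.imK) = 0)).resolve_left hT
      rw [map_eq_zero_iff ρ ρ.injective] at this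
      linear_combination this
    have g4 := Nei.tri_inP H.ρα H.α2 v (Nei.Jm_inP H g0 g1 g2 g3)
    rw [h] at g4
    simp only [ep, fst_smul, QuaternionAlgebra.re_smul, QuaternionAlgebra.imI_smul,
      smul_eq_mul] at g4
    field_simp at g4
    apply ht
    rcases mul_eq_zero.1 (by linear_combination g4 : (2 : E) * t = 0) with g5 | g5
    · exact absurd g5 h2
    · exact g5
  · have hc : (2 : E) * β ≠ 0 := mul_ne_zero h2 hb
    have m0 : v.fst.re = -(α * v.fst.imI) := by
      have := (mul_eq_zero.1 (by linear_combination -e0 - e1 :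
        2 * β * (v.fst.re + α * v.fst.imI) = 0)).resolve_left hc
      linear_combination this
    have m1 : v.fst.imJ = α * v.fst.imK := by
      have := (mul_eq_zero.1 (by linear_combination -e2 + e3 :
        2 * β * (v.fst.imJ - α * v.fst.imK) = 0)).resolve_left hc
      linear_combination this
    have m2 : v.snd.re = α * v.snd.imI := by
      have := (mul_eq_zero.1 (by linear_combination -e4 + e5 :
        2 * β * (v.snd.re - α * v.snd.imI) = 0)).resolve_left hc
      linear_combination this
    have m3 : v.snd.imJ = -(α * v.snd.imK) := by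
      have := (mul_eq_zero.1 (by linear_combination -e6 - e7 :
        2 * β * (v.snd.imJ + α * v.snd.imK) = 0)).resolve_left hc
      linear_combination this
    have n0 := congrArg ρ m0
    have n1 := congrArg ρ m1
    have n2 := congrArg ρ m2
    have n3 := congrArg ρ m3
    rw [map_neg, map_mul, H.ρα] at n0
    rw [map_mul, H.ρα] at n1 n2
    rw [map_neg, map_mul, H.ρα] at n3
    have r0 : v.fst.re = 0 := by
      refine (mul_eq_zero.1 (?_ : 2 * β * v.fst.re = 0)).resolve_left hc
      linear_combination -e0 + T * n0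
    have r1 : v.fst.imI = 0 := by
      rw [r0] at m0
      exact (mul_eq_zero.1 (by linear_combination m0 : α * v.fst.imI = 0)).resolve_left h0
    set l : E := -β / T with hl
    have l1 : ρ v.fst.imJ = l * v.fst.imJ := by
      rw [hl]
      field_simp
      have := mul_left_cancel₀ h2 (by linear_combination -e2 + T * n1 :
        2 * (T * ρ v.fst.imJ) = 2 * (-(β * v.fst.imJ)))
      linear_combination this
    have l2 : ρ v.snd.re = l * v.snd.re := by
      rw [hl]
      field_simp
      have := mul_left_cancel₀ h2 (by linear_combination -e4 + T * n2 :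
        2 * (T * ρ v.snd.re) = 2 * (-(β * v.snd.re)))
      linear_combination this
    have l3 : ρ v.snd.imJ = l * v.snd.imJ := by
      rw [hl]
      field_simp
      have := mul_left_cancel₀ h2 (by linear_combination -e6 + T * n3 :
        2 * (T * ρ v.snd.imJ) = 2 * (-(β * v.snd.imJ)))
      linear_combination this
    obtain ⟨s, hs, hs'⟩ : ∃ s : E, s ≠ 0 ∧ ρ s = l * s := by
      by_contra hne
      push Not at hne
      have k1 : v.fst.imJ = 0 := by
        by_contra h; exact hne _ h l1
      have k2 : v.snd.re = 0 := by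
        by_contra h; exact hne _ h l2
      have k3 : v.snd.imJ = 0 := by
        by_contra h; exact hne _ h l3
      apply hv.1
      rw [k1] at m1
      rw [k2] at m2
      rw [k3] at m3
      exact ext8 r0 r1 k1 ((mul_eq_zero.1 m1.symm).resolve_left h0) k2
        ((mul_eq_zero.1 m2.symm).resolve_left h0) k3
        ((mul_eq_zero.1 (by linear_combination m3 : α * v.snd.imK = 0)).resolve_left h0)
    have hl0 : l ≠ 0 := by
      intro h
      rw [h, zero_mul, map_eq_zero_iff ρ ρ.injective] at hs'
      exact hs hs'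
    have key : ∀ X : E, ρ X = l * X → ∃ p0 p1 : k,
        X = s * (algebraMap k E p0 + algebraMap k E p1 * α) := by
      intro X hX
      obtain ⟨p0, p1, hp⟩ := Nei.fix H (x := X / s) (by
        rw [map_div₀, hX, hs']
        field_simp)
      exact ⟨p0, p1, by rw [← hp]; field_simp⟩
    obtain ⟨p0, p1, hX⟩ := key _ l1
    obtain ⟨u0, u1, hY⟩ := key _ l2
    obtain ⟨w0, w1, hZ⟩ := key _ l3
    have main : v = s • (ep α * oup E (⟨⟨0, 0, 2 * p0, 2 * p1⟩,
        ⟨2 * u0, 2 * u1, 2 * w0, -(2 * w1)⟩⟩ : Oct a b c)) := by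
      have m1' : v.fst.imK = s * (algebraMap k E p0 + algebraMap k E p1 * α) / α := by
        rw [← hX, m1]; field_simp
      have m2' : v.snd.imI = s * (algebraMap k E u0 + algebraMap k E u1 * α) / α := by
        rw [← hY, m2]; field_simp
      have m3' : v.snd.imK = -(s * (algebraMap k E w0 + algebraMap k E w1 * α)) / α := by
        rw [← hZ, m3]; field_simp
      apply ext8 <;>
        simp only [ep, oup, fst_smul, snd_smul, fst_mul, snd_mul, re_qup, imI_qup, imJ_qup,
          imK_qup, QuaternionAlgebra.re_smul, QuaternionAlgebra.imI_smul,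
          QuaternionAlgebra.imJ_smul, QuaternionAlgebra.imK_smul, smul_eq_mul,
          QuaternionAlgebra.re_add, QuaternionAlgebra.imI_add, QuaternionAlgebra.imJ_add,
          QuaternionAlgebra.imK_add,
          QuaternionAlgebra.re_mul, QuaternionAlgebra.imI_mul, QuaternionAlgebra.imJ_mul,
          QuaternionAlgebra.imK_mul, QuaternionAlgebra.re_star, QuaternionAlgebra.imI_star,
          QuaternionAlgebra.imJ_star, QuaternionAlgebra.imK_star,
          QuaternionAlgebra.re_zero, QuaternionAlgebra.imI_zero, QuaternionAlgebra.imJ_zero,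
          QuaternionAlgebra.imK_zero, map_zero, map_mul, map_neg, map_ofNat, ha, mul_zero,
          zero_mul, add_zero, zero_add, neg_zero, sub_zero, r0, r1, hX, hY, hZ, m1', m2', m3'] <;>
        field_simp <;> ring
    refine ⟨s, _, hs, ?_, ?_, ?_, main⟩
    · intro h
      rw [h, oup_zero, mul_zero, smul_zero] at main
      exact hv.1 main
    · simp [dot]
    · simp [dot, gi]

/-- D1a : the neighbours of a standard singular vector. -/
theorem nb_ep {v : OctL E a b c} (hv : Pt ρ v) (h : Nb ρ (ep α * oup E (gl : Oct a b c)) v) :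
    ∃ (s t : E) (f : Oct a b c), dot f 1 = 0 ∧ dot f gi = 0 ∧ dot f gl = 0 ∧
      dot f (gi * gl) = 0 ∧ v = s • (ep α * oup E gl) + t • ((1 - ep α) * oup E f) := by
  have h0 := Nei.al0 H
  have h2 : (2 : E) ≠ 0 := NeZero.ne 2
  have ha : ((up E a : Eˣ) : E) = α * α := H.α2.symm
  have hc : ((up E c : Eˣ) : E) ≠ 0 := (up E c).ne_zero
  have hb : ((up E b : Eˣ) : E) ≠ 0 := (up E b).ne_zero
  have hep : (ep α * oup E (gl : Oct a b c) : OctL E a b c) =
      ⟨0, ⟨1 / 2, 1 / (2 * α), 0, 0⟩⟩ := by
    rw [oup_gl]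
    apply ext8 <;>
      simp only [ep, gl, fst_mul, snd_mul,
        QuaternionAlgebra.re_add, QuaternionAlgebra.imI_add, QuaternionAlgebra.imJ_add,
        QuaternionAlgebra.imK_add, QuaternionAlgebra.re_mul, QuaternionAlgebra.imI_mul,
        QuaternionAlgebra.imJ_mul, QuaternionAlgebra.imK_mul, QuaternionAlgebra.re_smul,
        QuaternionAlgebra.imI_smul, QuaternionAlgebra.imJ_smul, QuaternionAlgebra.imK_smul,
        QuaternionAlgebra.re_star, QuaternionAlgebra.imI_star,
        QuaternionAlgebra.imJ_star, QuaternionAlgebra.imK_star,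
        QuaternionAlgebra.re_zero, QuaternionAlgebra.imI_zero, QuaternionAlgebra.imJ_zero,
        QuaternionAlgebra.imK_zero, QuaternionAlgebra.re_one, QuaternionAlgebra.imI_one,
        QuaternionAlgebra.imJ_one, QuaternionAlgebra.imK_one, smul_eq_mul] <;> ring
  rw [hep] at h
  obtain ⟨f1, f2⟩ := h
  have a1 := congrArg (fun z => z.snd.re) f1
  have a2 := congrArg (fun z => z.snd.imJ) f1
  have a3 := congrArg (fun z => z.fst.re) f1
  have a4 := congrArg (fun z => z.fst.imJ) f1
  have a5 := congrArg (fun z => z.snd.re) f2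
  simp only [tri, fst_mul, snd_mul, Nei.o1, Nei.o2, fst_star, snd_star, re_qmap,
      imI_qmap, imJ_qmap, imK_qmap, QuaternionAlgebra.re_star, QuaternionAlgebra.imI_star,
      QuaternionAlgebra.imJ_star, QuaternionAlgebra.imK_star, QuaternionAlgebra.re_add,
      QuaternionAlgebra.imI_add, QuaternionAlgebra.imJ_add, QuaternionAlgebra.imK_add,
      QuaternionAlgebra.re_mul, QuaternionAlgebra.imI_mul, QuaternionAlgebra.imJ_mul,
      QuaternionAlgebra.imK_mul, QuaternionAlgebra.re_smul, QuaternionAlgebra.imI_smul,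
      QuaternionAlgebra.imJ_smul, QuaternionAlgebra.imK_smul, smul_eq_mul, neg_zero, qmap_zero,
      star_zero, zero_mul, mul_zero, add_zero, zero_add, sub_zero, map_neg, map_zero, map_one,
      map_div₀, map_mul, map_ofNat, H.ρα, ha, QuaternionAlgebra.re_neg, QuaternionAlgebra.imI_neg,
      QuaternionAlgebra.imJ_neg, QuaternionAlgebra.imK_neg, QuaternionAlgebra.re_zero,
      QuaternionAlgebra.imI_zero, QuaternionAlgebra.imJ_zero, QuaternionAlgebra.imK_zero,
      fst_zero, snd_zero] at a1 a2 a3 a4 a5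
  field_simp at a1 a2 a3 a4 a5
  rw [mul_zero] at a1 a2 a3 a4 a5
  have b1 : v.fst.re = -(α * v.fst.imI) := by
    have : ρ (ρ (v.fst.re + α * v.fst.imI)) = 0 := by
      rw [map_add, map_mul, H.ρα, map_add, map_mul, H.ρα]
      linear_combination -a1
    rw [map_eq_zero_iff ρ ρ.injective, map_eq_zero_iff ρ ρ.injective] at this
    linear_combination this
  have b2 : v.fst.imJ = -(α * v.fst.imK) := by
    have : ρ (ρ (v.fst.imJ + α * v.fst.imK)) = 0 := by
      rw [map_add, map_mul, H.ρα, map_add, map_mul, H.ρα]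
      linear_combination -a2
    rw [map_eq_zero_iff ρ ρ.injective, map_eq_zero_iff ρ ρ.injective] at this
    linear_combination this
  have b3 : v.snd.re = α * v.snd.imI := by
    have : ρ (ρ (v.snd.re - α * v.snd.imI)) = 0 := by
      rw [map_sub, map_mul, H.ρα, map_sub, map_mul, H.ρα]
      have := (mul_eq_zero.1 a3).resolve_left hc
      linear_combination this
    rw [map_eq_zero_iff ρ ρ.injective, map_eq_zero_iff ρ ρ.injective] at this
    linear_combination this
  have b4 : v.snd.imJ = α * v.snd.imK := by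
    have : ρ (ρ (v.snd.imJ - α * v.snd.imK)) = 0 := by
      rw [map_sub, map_mul, H.ρα, map_sub, map_mul, H.ρα]
      have := (mul_eq_zero.1 a4).resolve_left hc
      linear_combination -this
    rw [map_eq_zero_iff ρ ρ.injective, map_eq_zero_iff ρ ρ.injective] at this
    linear_combination this
  have b5 : v.fst.re = α * v.fst.imI := by
    have : ρ (v.fst.re - α * v.fst.imI) = 0 := by
      rw [map_sub, map_mul, H.ρα]
      linear_combination -a5
    rw [map_eq_zero_iff ρ ρ.injective] at this
    linear_combination this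
  have b6 : v.fst.imI = 0 := by
    refine (mul_eq_zero.1 (?_ : 2 * α * v.fst.imI = 0)).resolve_left (mul_ne_zero h2 h0)
    linear_combination b1 - b5
  have b7 : v.fst.re = 0 := by rw [b5, b6, mul_zero]
  have c1 := congrArg (fun z => z.snd.re) hv.2
  simp only [tri, fst_mul, snd_mul, Nei.o1, Nei.o2, fst_star, snd_star, re_qmap,
      imI_qmap, imJ_qmap, imK_qmap, QuaternionAlgebra.re_star, QuaternionAlgebra.imI_star,
      QuaternionAlgebra.imJ_star, QuaternionAlgebra.imK_star, QuaternionAlgebra.re_add,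
      QuaternionAlgebra.re_mul, QuaternionAlgebra.re_smul, QuaternionAlgebra.imI_smul,
      QuaternionAlgebra.imJ_smul, QuaternionAlgebra.imK_smul, smul_eq_mul, neg_zero,
      zero_mul, mul_zero, add_zero, zero_add, sub_zero, map_neg, map_zero,
      map_mul, H.ρα, ha, QuaternionAlgebra.re_neg, QuaternionAlgebra.imI_neg,
      QuaternionAlgebra.imJ_neg, QuaternionAlgebra.imK_neg, QuaternionAlgebra.re_zero,
      fst_zero, snd_zero, b2, b3, b4, b6, b7] at c1
  have c2 : ρ v.snd.imK * ρ (ρ v.fst.imK) = ρ (ρ v.snd.imK) * ρ v.fst.imK := by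
    have c3 : (2 * (up E b : Eˣ) * (α * α)) *
        (ρ v.snd.imK * ρ (ρ v.fst.imK) - ρ (ρ v.snd.imK) * ρ v.fst.imK) = 0 := by
      linear_combination c1
    exact sub_eq_zero.1 ((mul_eq_zero.1 c3).resolve_left
      (mul_ne_zero (mul_ne_zero h2 hb) (mul_ne_zero h0 h0)))
  by_cases hx : v.fst.imK = 0
  · refine ⟨2 * α * v.snd.imI, 2 * α * v.snd.imK, ⟨0, ⟨0, 0, 1, 0⟩⟩, ?_, ?_, ?_, ?_, ?_⟩
    · simp [dot]
    · simp [dot, gi]
    · simp [dot, gl]
    · simp [dot, gl, gi]
    · rw [hep]
      rw [hx, mul_zero, neg_zero] at b2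
      apply ext8 <;>
        simp only [ep, oup, fst_smul, snd_smul, fst_mul, snd_mul, re_qup, imI_qup, imJ_qup,
          imK_qup, fst_add, snd_add, fst_sub, snd_sub, fst_one, snd_one,
          QuaternionAlgebra.re_smul, QuaternionAlgebra.imI_smul,
          QuaternionAlgebra.imJ_smul, QuaternionAlgebra.imK_smul, smul_eq_mul,
          QuaternionAlgebra.re_add, QuaternionAlgebra.imI_add, QuaternionAlgebra.imJ_add,
          QuaternionAlgebra.imK_add, QuaternionAlgebra.re_sub, QuaternionAlgebra.imI_sub,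
          QuaternionAlgebra.imJ_sub, QuaternionAlgebra.imK_sub, QuaternionAlgebra.re_one,
          QuaternionAlgebra.imI_one, QuaternionAlgebra.imJ_one, QuaternionAlgebra.imK_one,
          QuaternionAlgebra.re_mul, QuaternionAlgebra.imI_mul, QuaternionAlgebra.imJ_mul,
          QuaternionAlgebra.imK_mul, QuaternionAlgebra.re_star, QuaternionAlgebra.imI_star,
          QuaternionAlgebra.imJ_star, QuaternionAlgebra.imK_star,
          QuaternionAlgebra.re_zero, QuaternionAlgebra.imI_zero, QuaternionAlgebra.imJ_zero,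
          QuaternionAlgebra.imK_zero, map_zero, map_one, ha, mul_zero,
          zero_mul, add_zero, zero_add, neg_zero, sub_zero, b2, b3, b4, b6, b7, hx] <;>
        field_simp <;> ring
  · obtain ⟨z0, z1, hz⟩ := Nei.fix H (x := v.snd.imK / v.fst.imK) (by
      apply ρ.injective
      rw [map_div₀, map_div₀]
      have g1 : ρ v.fst.imK ≠ 0 := by
        rw [ne_eq, map_eq_zero_iff ρ ρ.injective]; exact hx
      have g2 : ρ (ρ v.fst.imK) ≠ 0 := by
        rw [ne_eq, map_eq_zero_iff ρ ρ.injective]; exact g1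
      rw [div_eq_div_iff g2 g1]
      exact c2.symm)
    have hz' : v.snd.imK = v.fst.imK * (algebraMap k E z0 + algebraMap k E z1 * α) := by
      rw [← hz]
      field_simp
    refine ⟨2 * α * v.snd.imI, -(2 * α * v.fst.imK), ⟨⟨0, 0, 1, 0⟩, ⟨0, 0, -z0, -z1⟩⟩,
      ?_, ?_, ?_, ?_, ?_⟩
    · simp [dot]
    · simp [dot, gi]
    · simp [dot, gl]
    · simp [dot, gl, gi]
    · rw [hep]
      apply ext8 <;>
        simp only [ep, oup, fst_smul, snd_smul, fst_mul, snd_mul, re_qup, imI_qup, imJ_qup,
          imK_qup, fst_add, snd_add, fst_sub, snd_sub, fst_one, snd_one,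
          QuaternionAlgebra.re_smul, QuaternionAlgebra.imI_smul,
          QuaternionAlgebra.imJ_smul, QuaternionAlgebra.imK_smul, smul_eq_mul,
          QuaternionAlgebra.re_add, QuaternionAlgebra.imI_add, QuaternionAlgebra.imJ_add,
          QuaternionAlgebra.imK_add, QuaternionAlgebra.re_sub, QuaternionAlgebra.imI_sub,
          QuaternionAlgebra.imJ_sub, QuaternionAlgebra.imK_sub, QuaternionAlgebra.re_one,
          QuaternionAlgebra.imI_one, QuaternionAlgebra.imJ_one, QuaternionAlgebra.imK_one,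
          QuaternionAlgebra.re_mul, QuaternionAlgebra.imI_mul, QuaternionAlgebra.imJ_mul,
          QuaternionAlgebra.imK_mul, QuaternionAlgebra.re_star, QuaternionAlgebra.imI_star,
          QuaternionAlgebra.imJ_star, QuaternionAlgebra.imK_star,
          QuaternionAlgebra.re_zero, QuaternionAlgebra.imI_zero, QuaternionAlgebra.imJ_zero,
          QuaternionAlgebra.imK_zero, map_zero, map_one, map_neg, ha, mul_zero,
          zero_mul, add_zero, zero_add, neg_zero, sub_zero, b2, b3, b4, b6, b7, hz'] <;>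
        field_simp <;> ring

end model

end Vale.Agent.P011.D4T
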