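import Vale.Agent.P011.D4T.H691.Na
import Vale.Agent.P011.D4T.H657.Tor

/-!
Block D4T: the parts of the same class in the centralisers of two involutions, from a change of
the quadratic field.
-/

open NumberField Topology

set_option linter.unusedSectionVars false

namespace Vale.Agent.P011.D4T

open Vale.Agent.P011.MPQ Vale.Agent.P011.D4 Vale.Agent.P011.D4.Oct Vale.Agent.P011.E6

section std

variable {k E : Type} [Field k] [Field E] [Algebra k E] [NeZero (2 : E)] {a b c : kˣ}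

theorem Part.tripO_std (h : Trip a b c (gi : Oct a b c) gj gl) (x : OctL E a b c) :
    tripO E h x = x := by
  rw [tripO_apply, oup_gi, oup_gj, oup_gl]
  exact emb_std x

theorem Part.tQ_std (h : Trip a b c (gi : Oct a b c) gj gl) (x : OctL E a b c) :
    tQ E h x = t0 E a b c x := by
  change tripO E h (t0 E a b c ((tripO E h).symm x)) = _
  rw [Part.tripO_std]
  congr 1
  rw [LinearEquiv.symm_apply_eq, Part.tripO_std]

variable {L : Type} [Field L] [Algebra k L] [Algebra L E] [IsScalarTower k L E]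
  {ρ σ : E ≃ₐ[k] E} {α : E} {q : Lˣ}

theorem Part.mem_stab0 (h : Trip a b c (gi : Oct a b c) gj gl) {z : AT ρ σ α a b c q}
    (hz : z ∈ stab ρ σ α q h) : z ∈ stab0 ρ σ α a b c q := by
  intro x
  have hz' : z.1 * tQ E h = tQ E h * z.1 := hz
  have h1 := congrArg (fun f : OctL E a b c ≃ₗ[E] OctL E a b c => f x) hz'
  change z.1 (tQ E h x) = tQ E h (z.1 x) at h1
  rwa [Part.tQ_std, Part.tQ_std] at h1

end std

section iso

variable {k L E E1 : Type} [Field k] [Field L] [Field E] [Field E1] [Algebra k L] [Algebra k E]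
  [Algebra L E] [IsScalarTower k L E] [Algebra k E1] [Algebra L E1] [IsScalarTower k L E1]
  [NeZero (2 : E)] [NeZero (2 : E1)] {ρ σ : E ≃ₐ[k] E} {ρL : L ≃ₐ[k] L} {α : E}
  {a b c : kˣ} {q : Lˣ} {ρ1 σ1 : E1 ≃ₐ[k] E1} {α1 : E1} {a1 b1 c1 : kˣ} {q1 : Lˣ}

section

variable {φ : AT ρ σ α a b c q ≃* AT ρ1 σ1 α1 a1 b1 c1 q1}
  (kp : ∀ (z : AT ρ σ α a b c q) (κ : Lˣ), IsKap ρ z.1 κ ↔ IsKap ρ1 (φ z).1 κ)

include kp

theorem Part.kap_iso (z : AT ρ σ α a b c q) : kap (φ z) = kap z :=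
  kap_eq ((kp z _).1 (isKap_kap z))

theorem Part.kap_iso' (z : AT ρ1 σ1 α1 a1 b1 c1 q1) : kap (φ.symm z) = kap z := by
  have h := Part.kap_iso kp (φ.symm z)
  rw [MulEquiv.apply_symm_apply] at h
  exact h.symm

/-- The isomorphism of the groups of rational points. -/
noncomputable def Part.gtIso : GT ρ1 σ1 α1 a1 b1 c1 q1 ≃* GT ρ σ α a b c q where
  toFun g := ⟨(φ.symm ⟨g.1, GT_le_AT g.2⟩).1, mem_GT_of_kap_one (by
    rw [Part.kap_iso' kp, kap_of_GT g.2])⟩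
  invFun g := ⟨(φ ⟨g.1, GT_le_AT g.2⟩).1, mem_GT_of_kap_one (by
    rw [Part.kap_iso kp, kap_of_GT g.2])⟩
  left_inv g := by
    apply Subtype.ext
    change (φ (φ.symm ⟨g.1, GT_le_AT g.2⟩)).1 = g.1
    rw [MulEquiv.apply_symm_apply]
  right_inv g := by
    apply Subtype.ext
    change (φ.symm (φ ⟨g.1, GT_le_AT g.2⟩)).1 = g.1
    rw [MulEquiv.symm_apply_apply]
  map_mul' g h := by
    apply Subtype.ext
    change (φ.symm ⟨g.1 * h.1, GT_le_AT (g * h).2⟩).1 =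
      (φ.symm ⟨g.1, GT_le_AT g.2⟩).1 * (φ.symm ⟨h.1, GT_le_AT h.2⟩).1
    have e1 : (⟨g.1 * h.1, GT_le_AT (g * h).2⟩ : AT ρ1 σ1 α1 a1 b1 c1 q1) =
      ⟨g.1, GT_le_AT g.2⟩ * ⟨h.1, GT_le_AT h.2⟩ := rfl
    rw [e1, map_mul]
    rfl

/-- The finite residuals correspond to each other. -/
theorem Part.Rs_iso {z : AT ρ1 σ1 α1 a1 b1 c1 q1} (hz : z.1 ∈ Rs ρ1 σ1 α1 a1 b1 c1 q1) :
    (φ.symm z).1 ∈ Rs ρ σ α a b c q := by
  obtain ⟨h1, h2⟩ := mem_Rs.1 hz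
  exact mem_Rs.2 ⟨_, fres_map (Part.gtIso kp) h2⟩

/-- The finite residuals correspond to each other. -/
theorem Part.Rs_iso_iff {z : AT ρ σ α a b c q} :
    z.1 ∈ Rs ρ σ α a b c q ↔ (φ z).1 ∈ Rs ρ1 σ1 α1 a1 b1 c1 q1 := by
  constructor
  · intro hz
    obtain ⟨h1, h2⟩ := mem_Rs.1 hz
    exact mem_Rs.2 ⟨_, fres_map (Part.gtIso kp).symm h2⟩
  · intro hz
    have h := Part.Rs_iso kp hz
    rwa [MulEquiv.symm_apply_apply] at h

end

/-- The elements of the central torus are central modulo `N`. -/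
theorem Part.comm {H : Hy ρ σ ρL α a b c q}
    (hN : ∀ {b' c' : kˣ} {j l : Oct a b c} (h : Trip a b' c' gi j l) {z : AT ρ σ α a b c q},
      z ∈ stab ρ σ α q h → kap z = 1 → IsN ρ σ α a b c q z) {z : AT ρ σ α a b c q}
    (hz : ∀ {b' c' : kˣ} {j l : Oct a b c} (h : Trip a b' c' gi j l), z ∈ stab ρ σ α q h) :
    stabs ρ σ α a b c q ≤ comGrp H.NA z := by
  rw [stabs, Subgroup.closure_le]
  rintro y ⟨b', c', j, l, h, hy⟩
  rw [SetLike.mem_coe, mem_comGrp]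
  refine hN h (Subgroup.mul_mem _ (Subgroup.mul_mem _ (Subgroup.mul_mem _ (hz h) hy)
    (Subgroup.inv_mem _ (hz h))) (Subgroup.inv_mem _ hy)) ?_
  rw [kap_mul, kap_mul, kap_mul, kap_inv, kap_inv, mul_comm (kap z) (kap y), mul_assoc (kap y),
    mul_inv_cancel, mul_one, mul_inv_cancel]

/-- The parts, from a change of the quadratic field. -/
theorem Part.of_iso (H1 : Hy ρ1 σ1 ρL α1 a1 b1 c1 q1)
    {φ : AT ρ σ α a b c q ≃* AT ρ1 σ1 α1 a1 b1 c1 q1}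
    (kp : ∀ (z : AT ρ σ α a b c q) (κ : Lˣ), IsKap ρ z.1 κ ↔ IsKap ρ1 (φ z).1 κ)
    (st0 : ∀ z : AT ρ σ α a b c q, z ∈ stab0 ρ σ α a b c q ↔ φ z ∈ stab0 ρ1 σ1 α1 a1 b1 c1 q1)
    (hN : ∀ {b' c' : kˣ} {j l : Oct a1 b1 c1} (h : Trip a1 b' c' gi j l)
      {z : AT ρ1 σ1 α1 a1 b1 c1 q1}, z ∈ stab ρ1 σ1 α1 q1 h → kap z = 1 →
      IsN ρ1 σ1 α1 a1 b1 c1 q1 z)
    {b' c' : kˣ} {j l : Oct a b c} (h : Trip a b' c' gi j l)
    {y : AT ρ1 σ1 α1 a1 b1 c1 q1} (hy : y ∈ stabs ρ1 σ1 α1 a1 b1 c1 q1) {b2 c2 : kˣ}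
    {j1 l1 : Oct a1 b1 c1} (h1 : Trip a1 b2 c2 gi j1 l1)
    (hback : ∀ z ∈ stab ρ1 σ1 α1 q1 h1, φ.symm (y⁻¹ * z * y) ∈ stab ρ σ α q h)
    {e : E1} (he : e ≠ 0) {κ : Lˣ} (hκ : algebraMap L E1 (κ : L) = e * σ1 e) :
    ∃ w w' : AT ρ σ α a b c q, w ∈ stab0 ρ σ α a b c q ∧ w' ∈ stab ρ σ α q h ∧
      IsKap ρ w.1 κ ∧ IsKap ρ w'.1 κ ∧ IsN ρ σ α a b c q (w * w'⁻¹) := by
  obtain ⟨z, κ', hz1, hz2, hz3⟩ := exists_tor H1 e he
  have e1 : κ' = κ := by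
    apply Units.ext
    apply (algebraMap L E1).injective
    rw [hz2, hκ]
  rw [e1] at hz1
  have hkz : kap z = κ := kap_eq hz1
  have hc := Part.comm (H := H1) hN hz3 (Subgroup.inv_mem _ hy)
  rw [mem_comGrp] at hc
  have hc2 : kap (z * y⁻¹ * z⁻¹ * y⁻¹⁻¹) = 1 := by
    rw [kap_mul, kap_mul, kap_mul, kap_inv y⁻¹, kap_inv, kap_inv, mul_comm (kap z),
      mul_assoc _ (kap z), mul_inv_cancel, mul_one, mul_inv_cancel]
  have hc3 : (z * y⁻¹ * z⁻¹ * y⁻¹⁻¹).1 ∈ Rs ρ1 σ1 α1 a1 b1 c1 q1 :=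
    mem_of_isN H1 _ (mem_GT_of_kap_one hc2) hc
  refine ⟨φ.symm z, φ.symm (y⁻¹ * z * y), ?_, hback z (hz3 h1), ?_, ?_, ?_⟩
  · rw [st0, MulEquiv.apply_symm_apply]
    exact Part.mem_stab0 trip_std (hz3 trip_std)
  · rw [kp, MulEquiv.apply_symm_apply]
    exact hz1
  · rw [kp, MulEquiv.apply_symm_apply]
    have e2 : kap (y⁻¹ * z * y) = κ := by
      rw [kap_mul, kap_mul, kap_inv, hkz, mul_comm, mul_inv_cancel_left]
    rw [← e2]
    exact isKap_kap _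
  · have e3 : φ.symm z * (φ.symm (y⁻¹ * z * y))⁻¹ = φ.symm (z * y⁻¹ * z⁻¹ * y⁻¹⁻¹) := by
      have e4 : z * (y⁻¹ * z * y)⁻¹ = z * y⁻¹ * z⁻¹ * y⁻¹⁻¹ := by group
      rw [← map_inv, ← map_mul, e4]
    rw [e3]
    exact ⟨1, _, Part.Rs_iso kp hc3, fun x => by rw [Units.val_one, map_one, one_smul]⟩

end iso

end Vale.Agent.P011.D4T
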