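import Vale.Agent.P011.D4T.H64.F4

/-!
Block D4T: quadratic polynomials `X² - u X + s` with good discriminants.
-/

open NumberField IsDedekindDomain Topology Filter

namespace Vale.Agent.P011.D4T

open Vale.Agent.P011.Arith Vale.Agent.P011.D4 Vale.Agent.P011.MPQ

section loc

variable {F : Type} [Field F] [NumberField F]

/-- A local norm from `F(√s)` which is not a local square. -/
theorem exists_nf (v : HeightOneSpectrum (𝓞 F)) (s : Fˣ) :
    ∃ n ∈ NF s, n ∉ LS (v.valuation F) := by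
  obtain ⟨g, hg, hgs⟩ := exists_class v s
  by_contra hcon
  push Not at hcon
  have hle : NF s ⊔ LS (v.valuation F) ≤ LS (v.valuation F) := sup_le hcon le_rfl
  by_cases hs : s ∈ LS (v.valuation F)
  · obtain ⟨π, hπ⟩ := exists_exp v
    have h1 := NF_sup_of_mem ⟨π, hπ⟩ s hs
    rw [h1] at hle
    exact hg (hle (Subgroup.mem_top g))
  · have h1 := local_index_two v s hs
    have h2 : NF s ⊔ LS (v.valuation F) = LS (v.valuation F) := le_antisymm hle le_sup_right
    rw [h2] at h1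
    exact hgs ((Subgroup.mul_mem_iff_of_index_two h1).2 (by simp only [hg, hs]))

/-- A quadratic polynomial with constant term `s` whose discriminant is not a local square. -/
theorem exists_disc (v : HeightOneSpectrum (𝓞 F)) (s : Fˣ) :
    ∃ (u : F) (D : Fˣ), (D : F) = u ^ 2 - 4 * s ∧ D ∉ LS (v.valuation F) := by
  obtain ⟨n, ⟨x, y, hn⟩, hnL⟩ := exists_nf v s
  have hy : y ≠ 0 := by
    rintro rfl
    apply hnL
    apply Sq_le_LS
    rw [mem_Sq_iff]
    exact ⟨x, by rw [hn]; ring⟩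
  have h2 : (2 : F) ≠ 0 := two_ne_zero
  refine ⟨2 * x / y, n * (Units.mk0 (2 / y) (div_ne_zero h2 hy)) ^ 2, ?_, ?_⟩
  · rw [Units.val_mul, Units.val_pow_eq_pow_val, Units.val_mk0, hn]
    field_simp
    ring
  · intro h
    apply hnL
    have h3 : (Units.mk0 (2 / y) (div_ne_zero h2 hy)) ^ 2 ∈ LS (v.valuation F) :=
      Sq_le_LS _ ⟨_, rfl⟩
    exact (Subgroup.mul_mem_cancel_right _ h3).1 h

/-- Global discriminants with prescribed local behaviour. -/
theorem exists_gdisc (s a : Fˣ) (ha : ¬ IsSquare (a : F)) (hs1 : s ≠ 1)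
    (hs : ∀ τ : F →+* ℝ, τ a < 0 → 0 < τ s) {S : Set (HeightOneSpectrum (𝓞 F))}
    (hS : S.Finite) : ∃ (u : F) (D : Fˣ), (D : F) = u ^ 2 - 4 * s ∧
      (∀ v ∈ S, D ∉ LS (v.valuation F)) ∧ (∀ τ : F →+* ℝ, τ D < 0 ↔ τ a < 0) ∧
      ∀ r : F, (D : F) ≠ a * r ^ 2 := by
  classical
  obtain ⟨v1, hv1S, hv1⟩ := exists_nonsplit a ha S hS
  -- the local data
  have key : ∀ p : Pl F, ∃ (u : F) (D : Fˣ), (D : F) = u ^ 2 - 4 * s ∧
      (∀ v, p = Sum.inl v → (v = v1 → D ∈ LS (v.valuation F)) ∧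
        (v ≠ v1 → D ∉ LS (v.valuation F))) ∧
      ∀ τ : F →+* ℝ, p = Sum.inr τ → (τ D < 0 ↔ τ a < 0) := by
    intro p
    rcases p with v | τ
    · by_cases hv : v = v1
      · have h1 : (1 : F) - s ≠ 0 := by
          intro h
          apply hs1
          apply Units.ext
          rw [Units.val_one]
          exact (sub_eq_zero.1 h).symm
        refine ⟨1 + s, (Units.mk0 _ h1) ^ 2, ?_, ?_, ?_⟩
        · rw [Units.val_pow_eq_pow_val, Units.val_mk0]
          ring
        · intro v' hv'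
          refine ⟨fun _ => Sq_le_LS _ ⟨_, rfl⟩, fun h => absurd ?_ h⟩
          rw [← Sum.inl.inj hv']
          exact hv
        · intro τ h
          exact absurd h (by simp)
      · obtain ⟨u, D, h1, h2⟩ := exists_disc v s
        refine ⟨u, D, h1, ?_, ?_⟩
        · intro v' hv'
          rw [← Sum.inl.inj hv']
          exact ⟨fun h => absurd h hv, fun _ => h2⟩
        · intro τ h
          exact absurd h (by simp)
    · have hτs : τ (s : F) ≠ 0 := (map_ne_zero τ).mpr s.ne_zero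
      by_cases hτ : τ a < 0
      · refine ⟨0, Units.mk0 (-(4 * (s : F))) (neg_ne_zero.2 (mul_ne_zero (by norm_num)
          s.ne_zero)), ?_, ?_, ?_⟩
        · rw [Units.val_mk0]; ring
        · intro v h
          exact absurd h (by simp)
        · intro τ' h
          rw [← Sum.inr.inj h, Units.val_mk0, map_neg, map_mul, map_ofNat]
          have := hs τ hτ
          exact ⟨fun _ => hτ, fun _ => by linarith⟩
      · have h1 : 0 < τ (4 * (1 + s + s ^ 2) : F) := by
          rw [map_mul, map_ofNat, map_add, map_add, map_one, map_pow]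
          nlinarith [sq_nonneg (τ (s : F) + 1 / 2)]
        have h2 : (4 * (1 + s + s ^ 2) : F) ≠ 0 := by
          intro h
          rw [h, map_zero] at h1
          exact lt_irrefl _ h1
        refine ⟨2 + 2 * s, Units.mk0 _ h2, ?_, ?_, ?_⟩
        · rw [Units.val_mk0]; ring
        · intro v h
          exact absurd h (by simp)
        · intro τ' h
          rw [← Sum.inr.inj h, Units.val_mk0]
          exact ⟨fun h => absurd h1 (not_lt.2 h.le), fun h => absurd h hτ⟩
  choose u0 D0 hD0 hfin hreal using key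
  -- closeness
  choose δ hδ hδ' using fun p : Pl F => LSp_of_near p (D0 p)
  have hpos : ∀ p : Pl F, 0 < min (δ p) (plAbv p (D0 p : F)) := fun p =>
    lt_min (hδ p) ((plAbv p).pos (D0 p).ne_zero)
  choose η hη hη' using fun p : Pl F => exists_delta (ι := Unit) (plAbv p)
    (fun X : Unit → F => (X ()) ^ 2 - 4 * s)
    (by
      let _ := topA (plAbv p)
      have := topA_ring (plAbv p)
      fun_prop) (fun _ => u0 p) (hpos p)
  obtain ⟨u, hu⟩ := approx (SP (insert v1 S)) (SP_finite (hS.insert v1)) u0 η hη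
  have hnear : ∀ p ∈ SP (insert v1 S), plAbv p (u ^ 2 - 4 * s - D0 p) <
      min (δ p) (plAbv p (D0 p : F)) := by
    intro p hp
    have h1 := hη' p (fun _ => u) (fun _ => hu p hp)
    change plAbv p (u ^ 2 - 4 * s - (u0 p ^ 2 - 4 * s)) < _ at h1
    rw [← hD0 p] at h1
    exact h1
  have hv1m : (Sum.inl v1 : Pl F) ∈ SP (insert v1 S) :=
    inl_mem_SP.mpr (Set.mem_insert _ _)
  have hne : u ^ 2 - 4 * (s : F) ≠ 0 := by
    intro h
    have h1 := hnear _ hv1m
    rw [h, zero_sub, AbsoluteValue.map_neg] at h1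
    exact absurd (lt_of_lt_of_le h1 (min_le_right _ _)) (lt_irrefl _)
  obtain ⟨D, hD⟩ : ∃ D : Fˣ, (D : F) = u ^ 2 - 4 * s := ⟨Units.mk0 _ hne, rfl⟩
  have hcl : ∀ p ∈ SP (insert v1 S), D * D0 p ∈ LSp p := by
    intro p hp
    apply hδ' p
    rw [hD]
    exact lt_of_lt_of_le (hnear p hp) (min_le_left _ _)
  refine ⟨u, D, hD, ?_, ?_, ?_⟩
  · intro v hv h
    have h1 : D * D0 (Sum.inl v) ∈ LS (v.valuation F) :=
      hcl _ (inl_mem_SP.mpr (Set.mem_insert_of_mem _ hv))
    have h2 := (Subgroup.mul_mem_cancel_left _ h).1 h1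
    exact (hfin _ v rfl).2 (fun h3 => hv1S (h3 ▸ hv)) h2
  · intro τ
    have h1 : 0 < τ ((D * D0 (Sum.inr τ) : Fˣ) : F) := hcl _ inr_mem_SP
    rw [Units.val_mul, map_mul] at h1
    rw [← hreal _ τ rfl]
    rcases mul_pos_iff.1 h1 with ⟨h2, h3⟩ | ⟨h2, h3⟩
    · exact ⟨fun h => absurd h2 (not_lt.2 h.le), fun h => absurd h3 (not_lt.2 h.le)⟩
    · exact ⟨fun _ => h3, fun _ => h2⟩
  · intro r hr
    have h1 : D * D0 (Sum.inl v1) ∈ LS (v1.valuation F) := hcl _ hv1m
    have h2 : D ∈ LS (v1.valuation F) :=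
      (Subgroup.mul_mem_cancel_right _ ((hfin _ v1 rfl).1 rfl)).1 h1
    have hr0 : r ≠ 0 := by
      rintro rfl
      apply D.ne_zero
      rw [hr]; ring
    have h3 : D = a * (Units.mk0 r hr0) ^ 2 := by
      apply Units.ext
      rw [hr, Units.val_mul, Units.val_pow_eq_pow_val, Units.val_mk0]
    rw [h3] at h2
    exact hv1 ((Subgroup.mul_mem_cancel_right _ (Sq_le_LS _ ⟨_, rfl⟩)).1 h2)

end loc

section good

variable {k L : Type} [Field k] [NumberField k] [Field L] [NumberField L] [Algebra k L]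

/-- A quadratic polynomial over `k` with constant term `s` whose discriminant is good. -/
theorem exists_goodu (h3 : Module.finrank k L = 3) {ρL : L ≃ₐ[k] L} (hρ : ρL ≠ 1) {a b : kˣ}
    {q : Lˣ} (hb : Aniso a b) {s : kˣ} (hs1 : s ≠ 1) (hs : ∀ τ : k →+* ℝ, τ a < 0 → 0 < τ s) :
    ∃ (u : k) (D : kˣ), (D : k) = u ^ 2 - 4 * s ∧ GoodD a b q (D : k) ∧
      (∀ τ : k →+* ℝ, τ D < 0 ↔ τ a < 0) ∧ ∀ r : k, (D : k) ≠ a * r ^ 2 := by
  have hr3 : ∀ x, ρL (ρL (ρL x)) = x := E6I.rho3 h3 hρ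
  have hfix : ∀ x, ρL x = x → ∃ t : k, algebraMap k L t = x := fun x hx => E6I.rho_fix h3 hρ hx
  have haS : ¬ IsSquare (a : k) := by
    rintro ⟨r, hr⟩
    have h1 := hb ⟨r, 1, 0, 0⟩ (by
      simp only [nrd]
      rw [hr]
      ring)
    have h2 := congrArg QuaternionAlgebra.imI h1
    exact one_ne_zero (α := k) h2
  choose below hbelow using fun w : HeightOneSpectrum (𝓞 L) => Sch.exists_below (F := k) w
  obtain ⟨R, hR⟩ : ∃ R : Set (HeightOneSpectrum (𝓞 L)), R = {w | Ram (up L a) q w} ∪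
    {w | Ram (up L a) (q * up L b) w} := ⟨_, rfl⟩
  have hRf : R.Finite := by
    rw [hR]
    exact (ram_finite _ _).union (ram_finite _ _)
  obtain ⟨S, hS⟩ : ∃ S : Set (HeightOneSpectrum (𝓞 k)), S = {v | Ram a b v} ∪
    below '' R := ⟨_, rfl⟩
  have hSf : S.Finite := by
    rw [hS]
    exact (ram_finite _ _).union (hRf.image _)
  obtain ⟨u, D, h1, h2, h4, h5⟩ := exists_gdisc s a haS hs1 hs hSf
  have h6 : ∀ w ∈ R, up L D ∉ LS (w.valuation L) := fun w hw h =>
    h2 _ (by rw [hS]; exact Or.inr ⟨w, hw, rfl⟩) (LS_of_map hr3 hfix (hbelow w) h)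
  refine ⟨u, D, h1, goodD_of (fun v hv => h2 v (by rw [hS]; exact Or.inl hv))
    (fun w hw => h6 w (by rw [hR]; exact Or.inl hw))
    (fun w hw => h6 w (by rw [hR]; exact Or.inr hw)) (fun τ h => (h4 τ).mpr h)
    (fun τ h => (h4 τ).mp h), h4, h5⟩

end good

end Vale.Agent.P011.D4T
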