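import Vale.Agent.P011.D4T.H63.PartA
import Vale.Agent.P011.D4T.H63.Nei
import Vale.Agent.P011.D4T.H69.Z5K
import Vale.Agent.P011.D4T.H553.KC

/-!
Block D4T: the parts of the same class in the centralisers of two involutions.
-/

open NumberField Topology

set_option linter.unusedSectionVars false

namespace Vale.Agent.P011.D4T

open Vale.Agent.P011.MPQ Vale.Agent.P011.D4 Vale.Agent.P011.D4.Oct Vale.Agent.P011.E6

section part

variable {k L E : Type} [Field k] [NumberField k] [Field L] [NumberField L] [Field E]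
  [Algebra k L] [Algebra k E] [Algebra L E]
  [IsScalarTower k L E] [NeZero (2 : E)] {ρ σ : E ≃ₐ[k] E} {ρL : L ≃ₐ[k] L} {α : E}
  {a b c : kˣ} {q : Lˣ} (H : Hy ρ σ ρL α a b c q)

include H

/-- A good number which is not in `a k²` is not a square in `E`. -/
theorem Part.not_sq {D : k} (hD0 : D ≠ 0) {w : Qt a b} (hw0 : w.re = 0) (hw : w * w = D • 1)
    (hns : ∀ r : k, D ≠ a * r ^ 2) (x : E) : x * x ≠ algebraMap k E D := by
  intro hx
  have h2 : (2 : E) ≠ 0 := NeZero.ne 2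
  have hx0 : x ≠ 0 := by
    rintro rfl
    rw [mul_zero] at hx
    exact hD0 ((map_eq_zero (algebraMap k E)).1 hx.symm)
  have h1 : (ρ x - x) * (ρ x + x) = 0 := by
    have h3 := congrArg ρ hx
    rw [map_mul, ρ.commutes] at h3
    linear_combination h3 - hx
  have hfix : ρ x = x := by
    rcases mul_eq_zero.1 h1 with h3 | h3
    · exact sub_eq_zero.1 h3
    · exfalso
      have h4 : ρ x = -x := by linear_combination h3
      have h5 := H.ρ3 x
      rw [h4, map_neg, h4, neg_neg, h4] at h5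
      have h6 : (2 : E) * x = 0 := by linear_combination -h5
      exact hx0 ((mul_eq_zero.1 h6).resolve_left h2)
  obtain ⟨p0, p1, rfl⟩ := Nei.fix H hfix
  have h3 : algebraMap L E (algebraMap k L (p0 * p0 + a * (p1 * p1) - D)) +
      algebraMap L E (algebraMap k L (2 * (p0 * p1))) * α = 0 := by
    rw [← IsScalarTower.algebraMap_apply, ← IsScalarTower.algebraMap_apply]
    simp only [map_sub, map_add, map_mul, map_ofNat]
    linear_combination hx - (algebraMap k E p1 * algebraMap k E p1) * H.α2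
  obtain ⟨h4, h5⟩ := Nei.uniq H h3
  have h4' := (map_eq_zero (algebraMap k L)).1 h4
  have h5' := (map_eq_zero (algebraMap k L)).1 h5
  have h5'' : p0 * p1 = 0 := (mul_eq_zero.1 h5').resolve_left two_ne_zero
  rcases mul_eq_zero.1 h5'' with h6 | h6
  · apply hns p1
    rw [h6] at h4'
    linear_combination -h4'
  · rw [h6] at h4'
    have h7 : D = p0 * p0 := by linear_combination -h4'
    -- `w` would be a zero divisor
    have h8 : nrd (w + p0 • 1 : Qt a b) = 0 := by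
      have h9 := KCx.nrd_of_sq hw0 hw
      have h10 : nrd (w + p0 • 1 : Qt a b) = p0 ^ 2 + nrd w := by
        simp only [nrd, QuaternionAlgebra.re_add, QuaternionAlgebra.imI_add,
          QuaternionAlgebra.imJ_add, QuaternionAlgebra.imK_add, QuaternionAlgebra.re_smul,
          QuaternionAlgebra.imI_smul, QuaternionAlgebra.imJ_smul, QuaternionAlgebra.imK_smul,
          QuaternionAlgebra.re_one, QuaternionAlgebra.imI_one, QuaternionAlgebra.imJ_one,
          QuaternionAlgebra.imK_one, hw0, smul_eq_mul]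
        ring
      rw [h10, h9, h7]
      ring
    have h9 := H.hdiv.aniso _ h8
    have h10 := congrArg QuaternionAlgebra.re h9
    simp only [QuaternionAlgebra.re_add, QuaternionAlgebra.re_smul, QuaternionAlgebra.re_one,
      QuaternionAlgebra.re_zero, hw0, smul_eq_mul, zero_add, mul_one] at h10
    rw [h7, h10, mul_zero] at hD0
    exact hD0 rfl

/-- **The parts**, from `gen1` and `stab_N`. -/
theorem part_of
    (hgen : ∀ (E1 : Type) [Field E1] [Algebra k E1] [Algebra L E1] [IsScalarTower k L E1]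
      [NeZero (2 : E1)] (ρ1 σ1 : E1 ≃ₐ[k] E1) (α1 : E1) (a1 b1 c1 : kˣ) (q1 : Lˣ),
      Hy ρ1 σ1 ρL α1 a1 b1 c1 q1 → ∀ v : OctL E1 a1 b1 c1, Pt ρ1 v →
      ∃ y ∈ stabs ρ1 σ1 α1 a1 b1 c1 q1, ∃ t : E1, t ≠ 0 ∧
        y.1 (tri ρ1 v (Jm ρ1 σ1 α1 q1 v)) = t • ep α1)
    (hstab : ∀ (E1 : Type) [Field E1] [Algebra k E1] [Algebra L E1] [IsScalarTower k L E1]
      [NeZero (2 : E1)] (ρ1 σ1 : E1 ≃ₐ[k] E1) (α1 : E1) (a1 b1 c1 : kˣ) (q1 : Lˣ),
      Hy ρ1 σ1 ρL α1 a1 b1 c1 q1 → ∀ {b' c' : kˣ} {j l : Oct a1 b1 c1}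
      (h : Trip a1 b' c' gi j l) {z : AT ρ1 σ1 α1 a1 b1 c1 q1}, z ∈ stab ρ1 σ1 α1 q1 h →
      ∀ {κ : Lˣ}, IsKap ρ1 z.1 κ → κ ∈ SqL k L → IsN ρ1 σ1 α1 a1 b1 c1 q1 z)
    {b' c' : kˣ} {j l : Oct a b c} (h : Trip a b' c' gi j l) {D : k}
    (hD : GoodD a b q D) (hD' : GoodD a b' q D) {x y : L} (κ : Lˣ)
    (hκ : (κ : L) = x ^ 2 - algebraMap k L D * y ^ 2) :
    ∃ w w' : AT ρ σ α a b c q, w ∈ stab0 ρ σ α a b c q ∧ w' ∈ stab ρ σ α q h ∧
      IsKap ρ w.1 κ ∧ IsKap ρ w'.1 κ ∧ IsN ρ σ α a b c q (w * w'⁻¹) := by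
  by_cases hns : ∀ r : k, D ≠ a * r ^ 2
  · have : FiniteDimensional L E := Module.finite_of_finrank_pos (by rw [H.h2]; norm_num)
    have : NumberField E := NumberField.of_module_finite L E
    obtain ⟨hD0, ⟨w0, hw0, hw0'⟩, -, ⟨w1, hw1, hw1'⟩, hsgn⟩ := hD
    obtain ⟨-, ⟨w2, hw2, hw2'⟩, -, -, -⟩ := hD'
    obtain ⟨E1, O, _, _, _, _, _, _, _, _, _, _, _, _, _, _, _, _, ρ1, σ1, α1, ρ', σ', τ', a1, b1,
      c1, q1, u, φ, X⟩ := exists_kcx H hD0 hsgn (Part.not_sq H hD0 hw0 hw0' hns) hw0 hw0' hw1 hw1'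
    obtain ⟨y', hy', b2, c2, j1, l1, h1, hy1⟩ := z5_K H X.H1 X.K X.T.σ2 φ X.eqv X.kp
      (hgen E1 ρ1 σ1 α1 a1 b1 c1 q1 X.H1) h hw2 (by rw [X.ha1]; exact hw2')
    have he : (algebraMap L E1 x + algebraMap L E1 y * α1) *
        σ1 (algebraMap L E1 x + algebraMap L E1 y * α1) = algebraMap L E1 (κ : L) := by
      rw [map_add, map_mul, X.H1.σL, X.H1.σL, X.H1.σα, hκ]
      simp only [map_sub, map_mul, map_pow]
      rw [← IsScalarTower.algebraMap_apply, ← X.T.α12]
      ring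
    have he0 : algebraMap L E1 x + algebraMap L E1 y * α1 ≠ 0 := by
      intro h0
      rw [h0, zero_mul] at he
      exact κ.ne_zero ((map_eq_zero (algebraMap L E1)).1 he.symm)
    exact Part.of_iso X.H1 X.kp X.st0
      (fun h z hz hk => hstab E1 ρ1 σ1 α1 a1 b1 c1 q1 X.H1 h hz (κ := 1)
        (by rw [← hk]; exact isKap_kap _) (Subgroup.one_mem _)) h hy' h1
      (fun z hz => z5_stab hy1 hz) he0 he.symm
  · push Not at hns
    obtain ⟨r, hr⟩ := hns
    obtain ⟨y2, hy2⟩ : ∃ y2 : L, (κ : L) = x ^ 2 - algebraMap k L a * y2 ^ 2 :=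
      ⟨algebraMap k L r * y, by rw [hκ, hr, map_mul, map_pow]; ring⟩
    have he : (algebraMap L E x + algebraMap L E y2 * α) *
        σ (algebraMap L E x + algebraMap L E y2 * α) = algebraMap L E (κ : L) := by
      rw [map_add, map_mul, H.σL, H.σL, H.σα, hy2]
      simp only [map_sub, map_mul, map_pow]
      rw [← IsScalarTower.algebraMap_apply, ← H.α2]
      ring
    have he0 : algebraMap L E x + algebraMap L E y2 * α ≠ 0 := by
      intro h0
      rw [h0, zero_mul] at he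
      exact κ.ne_zero ((map_eq_zero (algebraMap L E)).1 he.symm)
    obtain ⟨z, κ', hz1, hz2, hz3⟩ := exists_tor H _ he0
    have e1 : κ' = κ := by
      apply Units.ext
      apply (algebraMap L E).injective
      rw [hz2, he]
    rw [e1] at hz1
    refine ⟨z, z, Part.mem_stab0 trip_std (hz3 trip_std), hz3 h, hz1, hz1, ?_⟩
    rw [mul_inv_cancel]
    exact H.NA.one_mem

end part

end Vale.Agent.P011.D4T
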